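import Vale.Agent.P225.System.Trunc.Op

/-!
P225, module F: signs of the free rates and sizes of the schedule.
-/

noncomputable section

namespace Vale.Agent.P225.Trunc

open Matrix SU2 Set
open scoped ComplexOrder Matrix.Norms.L2Operator

variable {d : PathData} {r₂ β φ₀ : ℝ}

theorem lab_ok {K : ℕ} (x : PntK K) : LblOK (lab x.out) := x.out.1.2

theorem casSum_eq (G : Fin 3) (l : Lbl) :
    casSum l = cas (l G) + (cas (l (G + 1)) + cas (l (G + 2))) := by
  fin_cases G <;> simp [casSum, cas4, cas, Fin.sum_univ_three] <;> ring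

theorem casSum_nonneg (l : Lbl) : 0 ≤ casSum l := by unfold casSum; positivity

theorem pathDamp_cont (hd : d.Good r₂ β φ₀) : Continuous (pathDamp d) :=
  (baseCoef_spec hd).2.1.continuous

theorem freeRate_const (hd : d.Good r₂ β φ₀) {t : ℝ} (ht : startTime r₂ ≤ t) :
    freeRate d r₂ β 0 t = 0 := by
  obtain ⟨h0, h⟩ := freeRate_spec hd 0
  have hc : ContinuousOn (freeRate d r₂ β 0) (Icc (startTime r₂) t) :=
    fun u hu => (h u hu.1).continuousAt.continuousWithinAt
  refine eq_zero_of_deriv_le (f := freeRate d r₂ β 0) (K := fun u => |freeRate d r₂ β 0 u| + |pathDamp d u|)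
    (fun u hu => h u hu.1) (hc.abs.add (pathDamp_cont hd).abs.continuousOn) (fun u _ => ?_) ?_ t
    ⟨ht, le_rfl⟩
  · rw [show baseCoef d 0 u = 0 by simp [baseCoef, cas], Real.norm_eq_abs, Real.norm_eq_abs,
      show 0 - freeRate d r₂ β 0 u ^ 2 - pathDamp d u * freeRate d r₂ β 0 u =
        -((freeRate d r₂ β 0 u + pathDamp d u) * freeRate d r₂ β 0 u) by ring, abs_neg, abs_mul]
    exact mul_le_mul_of_nonneg_right (abs_add_le _ _) (abs_nonneg _)
  · rw [h0]
    simp [coreRate]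

theorem baseCoef_nonneg (hd : d.Good r₂ β φ₀) {K : ℕ} (x : PntK K) {t : ℝ}
    (ht : startTime r₂ ≤ t) : 0 ≤ baseCoef d (lab x.out) t := by
  obtain ⟨C, hC, hb⟩ := (baseCoef_spec hd).2.2.2
  exact le_trans (mul_nonneg (inv_nonneg.2 hC.le) (casSum_nonneg _)) ((hb t ht).2 _ (lab_ok x)).1

theorem riccati_cont {n : Type*} [Fintype n] [DecidableEq n] {A : ℝ → Op n} {ν : ℝ → ℝ}
    {W : ℝ → Op n} {a b : ℝ} (h : IsRiccati A ν W a b) : ContinuousOn W (Icc a b) :=
  fun t ht => (h t ht).continuousAt.continuousWithinAt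

theorem damp_ge (hd : d.Good r₂ β φ₀) {t : ℝ} (h : (d.j₀ : ℝ) ^ 6 ≤ t) :
    49 / 10 ≤ pathDamp d t := by
  have h' : (d.j₀ : ℝ) ^ 6 - 1 ≤ t := by linarith
  rw [(baseCoef_spec hd).2.2.1 t h']
  exact (hd.nu_mem t h').1

theorem plan_len_le {period : ℕ} {plan : ℕ → List StagePlan} (hp : IsPlan period plan) (j : ℕ)
    {l : ℕ} (hl : l < (plan j).length) :
    ((plan j)[l]).len ≤ ∑ k ∈ Finset.range period, ((plan k).map StagePlan.len).sum := by
  have h : ∀ m r, plan (r + m * period) = plan r := by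
    intro m r
    induction m with
    | zero => simp
    | succ m ih => rw [Nat.succ_mul, ← Nat.add_assoc, hp.periodic, ih]
  have hj : plan j = plan (j % period) := by
    conv_lhs => rw [← Nat.mod_add_div' j period]
    exact h _ _
  refine le_trans ?_ (Finset.single_le_sum (fun k _ => Nat.zero_le _)
    (Finset.mem_range.2 (Nat.mod_lt j hp.period_pos)))
  exact List.le_sum_of_mem (hj ▸ List.mem_map.2 ⟨_, List.getElem_mem hl, rfl⟩)

theorem exists_speed_le (c : ℝ) (hc : 0 < c) : ∃ j₁ : ℕ, ∀ j, 1 ≤ j → j₁ ≤ j → speed j ≤ c := by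
  obtain ⟨n, hn⟩ := exists_nat_gt c⁻¹
  refine ⟨n, fun j hj hnj => ?_⟩
  have h1 : (1 : ℝ) ≤ j := by exact_mod_cast hj
  have h2 : c⁻¹ ≤ (j : ℝ) ^ 4 :=
    (hn.le.trans (by exact_mod_cast hnj)).trans (le_self_pow₀ h1 (by norm_num))
  rw [speed, inv_le_comm₀ (by positivity) hc]
  exact h2

end Vale.Agent.P225.Trunc
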