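import Vale.Agent.P225.System.Trunc

/-!
P225, module F: bounds of the operator and of the reference on a segment by the gauge weight,
uniformly in the parameters and in the truncation.
-/

noncomputable section

namespace Vale.Agent.P225.Trunc

open Matrix SU2 Set
open scoped ComplexOrder Matrix.Norms.L2Operator

variable {d : PathData} {r₂ β φ₀ : ℝ}

theorem linePar_le {P θ : ℝ} (hP : 0 ≤ P) (hθ : 0 ≤ θ) (hθ1 : θ ≤ 1) (G k : Fin 3) :
    linePar P θ G k ≤ 2 * P := by
  unfold linePar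
  have h1 : 1 ≤ Real.sqrt (1 + 2 * θ) := Real.one_le_sqrt.2 (by linarith)
  have h3 : Real.sqrt 3 ≤ 2 := Real.sqrt_le_iff.2 ⟨by norm_num, by norm_num⟩
  have h2 : Real.sqrt 3 * P / Real.sqrt (1 + 2 * θ) ≤ 2 * P :=
    (div_le_self (by positivity) h1).trans (mul_le_mul_of_nonneg_right h3 hP)
  split_ifs
  · exact (mul_le_of_le_one_right (by positivity) hθ1).trans h2
  · simpa using h2

theorem sum_gauge (G : Fin 3) (f : Fin 3 → ℝ) : ∑ k, f k = f G + (f (G + 1) + f (G + 2)) := by
  rw [Fin.sum_univ_three]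
  fin_cases G <;> simp <;> ring

theorem gauge_add_ne : ∀ G : Fin 3, G + 1 ≠ G ∧ G + 2 ≠ G := by decide

/-- On a segment the free coefficient is comparable with the squared weight of its gauge. -/
theorem seg_coef (hd : d.Good r₂ β φ₀) {i l : ℕ} (hl : l < (d.plan (d.j₀ + i)).length) {t : ℝ}
    (ht : t ∈ Icc (segStart d i l) (segEnd d i l)) {K : ℕ} (x : PntK K) :
    6 * (cas (lab x.out (((d.plan (d.j₀ + i))[l]).gauge + 1)) +
        cas (lab x.out (((d.plan (d.j₀ + i))[l]).gauge + 2))) ≤ baseCoef d (lab x.out) t ∧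
      baseCoef d (lab x.out) t ≤ 60 * (cas (lab x.out (((d.plan (d.j₀ + i))[l]).gauge + 1)) +
        cas (lab x.out (((d.plan (d.j₀ + i))[l]).gauge + 2))) := by
  set G := ((d.plan (d.j₀ + i))[l]).gauge with hG
  obtain ⟨-, -, -, hg, -⟩ := seg_times hd hl
  have hmem := hd.scale_mem t (by linarith [ht.1, hg])
  have h0 : ∀ k, 0 ≤ cas (lab x.out k) := fun k => by unfold cas; positivity
  have key : ∀ P : Fin 3 → ℝ, (∀ k, 0 ≤ P k) → (∀ k, P k ≤ 14) → (∀ k, k ≠ G → 67 / 10 ≤ P k) →
      baseCoef d (lab x.out) t = ∑ k, P k * cas (lab x.out k) →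
      6 * (cas (lab x.out (G + 1)) + cas (lab x.out (G + 2))) ≤ baseCoef d (lab x.out) t ∧
        baseCoef d (lab x.out) t ≤ 60 * (cas (lab x.out (G + 1)) + cas (lab x.out (G + 2))) := by
    intro P hP0 hP1 hP2 he
    obtain ⟨-, hb⟩ := blkWeight_bounds G x
    have hb' : casSum (lab x.out) ≤ 4 * (cas (lab x.out (G + 1)) + cas (lab x.out (G + 2))) := by
      have := pow_le_pow_left₀ (Real.sqrt_nonneg _) hb 2
      rw [Real.sq_sqrt (casSum_nonneg _), mul_pow, blkWeight,
        Real.sq_sqrt (add_nonneg (h0 _) (h0 _))] at this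
      linarith
    rw [casSum_eq G] at hb'
    rw [he, sum_gauge G]
    have n1 := (gauge_add_ne G).1
    have n2 := (gauge_add_ne G).2
    have := mul_nonneg (hP0 G) (h0 G)
    constructor
    · nlinarith [mul_le_mul_of_nonneg_right (hP2 _ n1) (h0 (G + 1)),
        mul_le_mul_of_nonneg_right (hP2 _ n2) (h0 (G + 2)), h0 (G + 1), h0 (G + 2)]
    · nlinarith [mul_le_mul_of_nonneg_right (hP1 G) (h0 G),
        mul_le_mul_of_nonneg_right (hP1 (G + 1)) (h0 (G + 1)),
        mul_le_mul_of_nonneg_right (hP1 (G + 2)) (h0 (G + 2)), h0 (G + 1), h0 (G + 2)]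
  have hconst : (∀ a, baseCoef d a t = ∑ k, d.scale t * cas (a k)) →
      6 * (cas (lab x.out (G + 1)) + cas (lab x.out (G + 2))) ≤ baseCoef d (lab x.out) t ∧
        baseCoef d (lab x.out) t ≤ 60 * (cas (lab x.out (G + 1)) + cas (lab x.out (G + 2))) :=
    fun h => key (fun _ => d.scale t) (fun _ => by linarith [hmem.1]) (fun _ => by linarith [hmem.2])
      (fun _ _ => hmem.1) (h _)
  by_cases h : t < stageStart d i (l + 1)
  · obtain ⟨hpg, hQ⟩ := pathQ_inStage hd hl ⟨ht.1, h⟩ (fun _ _ _ => 0)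
    rw [stageQ_free _ _ (hd.scale_pos t) _ (by simp [stageCtrl])] at hQ
    obtain ⟨hθ0, hθ1⟩ := stageTheta_mem ((d.plan (d.j₀ + i))[l])
      (speed (d.j₀ + i) * (t - stageStart d i l))
    have hP := (hd.scale_pos t).le
    exact key _ (linePar_nonneg hP hθ0 G) (fun k => (linePar_le hP hθ0 hθ1 G k).trans
      (by linarith [hmem.2])) (fun k hk => hmem.1.trans (linePar_ge hP hθ0 hθ1 hk))
      (baseCoef_eq hpg hQ _)
  · rcases segEnd_cases hl with ⟨-, he⟩ | ⟨hl', he⟩
    · obtain rfl : t = stageStart d i (l + 1) := le_antisymm (he ▸ ht.2) (not_lt.1 h)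
      exact hconst (pathMat_boundary (K := K) hd (fun _ _ _ => 0) (Nat.succ_le_of_lt hl)).2
    · refine hconst fun a => ?_
      have h1 : stageStart d i (d.plan (d.j₀ + i)).length ≤ t := hl' ▸ not_lt.1 h
      rcases (he ▸ ht.2 : t ≤ clusterStart d (i + 1)).lt_or_eq with hlt | rfl
      · rw [(pathMat_outside (K := K) hd (fun _ _ _ => 0) (not_inStage_dwell hd ⟨h1, hlt⟩)).2 a]
        simp only [if_pos ((stageStart_ge hd le_rfl).trans h1)]
      · rw [← stageStart_zero]
        exact (pathMat_boundary (K := K) hd (fun _ _ _ => 0) (Nat.zero_le _)).2 a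

/-- All bounds of a segment: with `f` the weight of its gauge, `c f² ≤ A ≤ C f²` and
`c f ≤ V ≤ C f`, and both commute with `f`. -/
theorem seg_bounds (period : ℕ) (plan : ℕ → List StagePlan) (box : ℝ) :
    ∃ (c C : ℝ) (j₁ : ℕ), 0 < c ∧ 0 < C ∧ ∀ (d : PathData) (r₂ β φ₀ : ℝ), d.period = period →
      d.plan = plan → d.box = box → j₁ ≤ d.j₀ → d.Good r₂ β φ₀ → ∀ p : Param, InBox d p →
      ∀ (K i l : ℕ) (hl : l < (d.plan (d.j₀ + i)).length),
        ∀ t ∈ Icc (segStart d i l) (segEnd d i l),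
          let G := ((d.plan (d.j₀ + i))[l]).gauge
          let u : PntK K → ℝ := fun x => cas (lab x.out (G + 1)) + cas (lab x.out (G + 2))
          (truncOp d p K t - diagonal fun x => ((c * u x : ℝ) : ℂ)).PosSemidef ∧
          ((diagonal fun x => ((C * u x : ℝ) : ℂ)) - truncOp d p K t).PosSemidef ∧
          Commute (diagonal fun x => ((blkWeight G x : ℝ) : ℂ) : Op (PntK K)) (truncOp d p K t) ∧
          (segRef d r₂ β p K i l t - diagonal fun x => ((c * blkWeight G x : ℝ) : ℂ)).PosSemidef ∧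
          ((diagonal fun x => ((C * blkWeight G x : ℝ) : ℂ)) - segRef d r₂ β p K i l t).PosSemidef ∧
          Commute (diagonal fun x => ((blkWeight G x : ℝ) : ℂ) : Op (PntK K))
            (segRef d r₂ β p K i l t) := by
  obtain ⟨K₁, hK₁, hop⟩ := seg_op period plan box
  obtain ⟨K₂, hK₂, hsand⟩ := seg_sandwich period plan box
  obtain ⟨C, hC, hrate⟩ := freeRate_weight
  obtain ⟨j₁, hj₁⟩ := exists_speed_le (min (1 / (2 * K₁)) (1 / (2 * K₂))) (by positivity)
  refine ⟨min 3 (2 * C)⁻¹, max 120 (4 * C), j₁, by positivity, by positivity, ?_⟩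
  intro d r₂ β φ₀ e1 e2 e3 hj hd p hp K i l hl t ht G u
  obtain ⟨-, -, -, hg, hs⟩ := seg_times hd hl
  have hε := hj₁ (d.j₀ + i) (one_le_idx hd i) (hj.trans (Nat.le_add_right _ _))
  have hk1 : K₁ * speed (d.j₀ + i) ≤ 1 / 2 := by
    have := hε.trans (min_le_left _ _)
    rw [le_div_iff₀ (by positivity)] at this; linarith
  have hk2 : K₂ * speed (d.j₀ + i) ≤ 1 / 2 := by
    have := hε.trans (min_le_right _ _)
    rw [le_div_iff₀ (by positivity)] at this; linarith
  have hε0 := (speed_pos (one_le_idx hd i)).le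
  have hk1' := mul_nonneg hK₁.le hε0
  have hk2' := mul_nonneg hK₂.le hε0
  obtain ⟨o1, o2, o3⟩ := hop d r₂ β φ₀ e1 e2 e3 hd p hp K i l hl hk1 t ht
  obtain ⟨s1, s2, s3⟩ := hsand d r₂ β φ₀ e1 e2 e3 hd p hp K i l hl hk2 t ht
  have hcoef := fun x => seg_coef hd hl ht (K := K) x
  have hr := fun x => hrate d r₂ β φ₀ hd t (hg.trans ht.1) G K x
  have hu : ∀ x, 0 ≤ u x := fun x => by simp only [u, cas]; positivity
  refine ⟨?_, ?_, o3, ?_, ?_, s3⟩
  · have h : ((1 - K₁ * speed (d.j₀ + i)) • baseDiag d K t -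
        diagonal fun x => ((min 3 (2 * C)⁻¹ * u x : ℝ) : ℂ)).PosSemidef := by
      rw [baseDiag, rdiag_smul, rdiag_sub]
      refine rdiag_posSemidef fun x => sub_nonneg.2 ?_
      have h6 : 6 * u x ≤ baseCoef d (lab x.out) t := (hcoef x).1
      have := mul_le_mul_of_nonneg_right (min_le_left (3 : ℝ) (2 * C)⁻¹) (hu x)
      have := mul_le_mul_of_nonneg_right (show 1 / 2 ≤ 1 - K₁ * speed (d.j₀ + i) by linarith)
        (show 0 ≤ baseCoef d (lab x.out) t by linarith [hu x])
      linarith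
    simpa using o2.add h
  · have h : ((diagonal fun x => ((max 120 (4 * C) * u x : ℝ) : ℂ)) -
        (1 + K₁ * speed (d.j₀ + i)) • baseDiag d K t).PosSemidef := by
      rw [baseDiag, rdiag_smul, rdiag_sub]
      refine rdiag_posSemidef fun x => sub_nonneg.2 ?_
      have h60 : baseCoef d (lab x.out) t ≤ 60 * u x := (hcoef x).2
      have h6 : 6 * u x ≤ _ := (hcoef x).1
      have := mul_le_mul_of_nonneg_right (le_max_left (120 : ℝ) (4 * C)) (hu x)
      nlinarith [hu x]
    simpa using h.add o1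
  · have h : ((1 - K₂ * speed (d.j₀ + i)) • freeDiag d r₂ β K t -
        diagonal fun x => ((min 3 (2 * C)⁻¹ * blkWeight G x : ℝ) : ℂ)).PosSemidef := by
      rw [freeDiag, rdiag_smul, rdiag_sub]
      refine rdiag_posSemidef fun x => sub_nonneg.2 ?_
      have hw := blkWeight_nonneg G x
      have := mul_le_mul_of_nonneg_right (min_le_right (3 : ℝ) (2 * C)⁻¹) hw
      have h1 := (hr x).1
      have h0 : 0 ≤ C⁻¹ * blkWeight G x := by positivity
      rw [mul_inv] at this ⊢
      have := mul_le_mul_of_nonneg_right (show 1 / 2 ≤ 1 - K₂ * speed (d.j₀ + i) by linarith)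
        (h0.trans h1)
      linarith
    simpa using s2.add h
  · have h : ((diagonal fun x => ((max 120 (4 * C) * blkWeight G x : ℝ) : ℂ)) -
        (1 + K₂ * speed (d.j₀ + i)) • freeDiag d r₂ β K t).PosSemidef := by
      rw [freeDiag, rdiag_smul, rdiag_sub]
      refine rdiag_posSemidef fun x => sub_nonneg.2 ?_
      have hw := blkWeight_nonneg G x
      have := mul_le_mul_of_nonneg_right (le_max_right (120 : ℝ) (4 * C)) hw
      have h0 : 0 ≤ C⁻¹ * blkWeight G x := by positivity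
      nlinarith [(hr x).2, (hr x).1]
    simpa using h.add s1

end Vale.Agent.P225.Trunc
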