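import Vale.Agent.P225.Riccati.Smoothing
import Vale.Agent.P225.Riccati.Solve

/-!
P225, module F: matrix facts for the truncated systems: diagonal forms, sandwiches, determinants,
gluing of solutions on growing intervals.
-/

noncomputable section

namespace Vale.Agent.P225.Trunc

open Set Matrix Filter
open scoped ComplexOrder Matrix.Norms.L2Operator Topology

variable {n : Type*} [Fintype n] [DecidableEq n]

theorem rdiag_posSemidef {f : n → ℝ} (h : ∀ x, 0 ≤ f x) :
    (diagonal fun x => (f x : ℂ) : Op n).PosSemidef :=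
  PosSemidef.diagonal fun x => Complex.zero_le_real.2 (h x)

theorem rdiag_smul (c : ℝ) (f : n → ℝ) :
    c • (diagonal fun x => (f x : ℂ) : Op n) = diagonal fun x => ((c * f x : ℝ) : ℂ) := by
  rw [← diagonal_smul]
  congr 1
  funext x
  simp [Complex.real_smul]

theorem rdiag_sub (f g : n → ℝ) :
    (diagonal fun x => (f x : ℂ) : Op n) - diagonal (fun x => (g x : ℂ)) =
      diagonal fun x => ((f x - g x : ℝ) : ℂ) := by
  rw [diagonal_sub]; congr 1; funext x; simp

theorem rdiag_mul (f g : n → ℝ) :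
    (diagonal fun x => (f x : ℂ) : Op n) * diagonal (fun x => (g x : ℂ)) =
      diagonal fun x => ((f x * g x : ℝ) : ℂ) := by
  rw [diagonal_mul_diagonal]; congr 1; funext x; simp

theorem rdiag_commute (f g : n → ℝ) :
    Commute (diagonal fun x => (f x : ℂ) : Op n) (diagonal fun x => (g x : ℂ)) :=
  commute_diagonal _ _

/-- A matrix commutes with a diagonal one if it only joins equal values. -/
theorem rdiag_commute_of {f : n → ℝ} {M : Op n} (h : ∀ x y, M x y ≠ 0 → f x = f y) :
    Commute (diagonal fun x => (f x : ℂ) : Op n) M := by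
  ext x y
  rw [diagonal_mul, mul_diagonal]
  by_cases hM : M x y = 0
  · simp [hM]
  · rw [h x y hM, mul_comm]

theorem hasDerivAt_rdiag {f : n → ℝ → ℝ} {f' : n → ℝ} {t : ℝ}
    (h : ∀ x, HasDerivAt (f x) (f' x) t) :
    HasDerivAt (fun s => (diagonal fun x => (f x s : ℂ) : Op n))
      (diagonal fun x => (f' x : ℂ)) t := by
  have h1 : HasDerivAt (fun s => fun x => (f x s : ℂ)) (fun x => (f' x : ℂ)) t :=
    hasDerivAt_pi.2 fun x => (h x).ofReal_comp
  exact (LinearMap.toContinuousLinearMap (Matrix.diagonalLinearMap n ℝ ℂ)).hasFDerivAt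
    |>.comp_hasDerivAt t h1

/-- A hermitian matrix between `-c` and `c` has norm at most `c`. -/
theorem norm_le_of_sandwich {M : Op n} (hM : M.IsHermitian) {c : ℝ} (hc : 0 < c)
    (h1 : (c • (1 : Op n) - M).PosSemidef) (h2 : (c • (1 : Op n) + M).PosSemidef) : ‖M‖ ≤ c := by
  have hs : ∀ {P : Op n}, P.PosSemidef → star P = P := fun hP => hP.isHermitian
  have e : c ^ 2 • (1 : Op n) - star M * M = (2 * c)⁻¹ •
      (star (c • (1 : Op n) - M) * (c • 1 + M) * (c • 1 - M) +
        star (c • (1 : Op n) + M) * (c • 1 - M) * (c • 1 + M)) := by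
    rw [hs h1, hs h2, show star M = M from hM]
    simp only [sub_mul, mul_sub, add_mul, mul_add, smul_mul_assoc, mul_smul_comm, one_mul, mul_one,
      smul_sub, smul_add, smul_smul]
    match_scalars <;> field_simp <;> ring
  have h := norm_sq_le_of_posSemidef (M := M) (c := c ^ 2) (by positivity) (e ▸ posSemidef_real_smul
    ((star_conj_posSemidef h2 _).add (star_conj_posSemidef h1 _)) (by positivity))
  exact (sq_le_sq₀ (norm_nonneg _) hc.le).1 h

theorem wgt_zero : wgt (fun _ : n => (0 : ℝ)) = 1 := by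
  simp [wgt]

theorem wgt_mul (f g : n → ℝ) : wgt f * wgt g = wgt fun x => f x + g x := by
  simp only [wgt, rdiag_mul, ← Real.exp_add]

theorem wgt_hermitian (f : n → ℝ) : star (wgt f) = wgt f :=
  (rdiag_posSemidef fun x => (Real.exp_pos (f x)).le).isHermitian

theorem commute_wgt {f : n → ℝ} {M : Op n}
    (h : Commute (diagonal fun x => (f x : ℂ) : Op n) M) (φ : ℝ → ℝ) :
    Commute (wgt fun x => φ (f x)) M := by
  refine rdiag_commute_of fun x y hM => ?_
  have hxy := congrFun (congrFun h.eq x) y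
  rw [diagonal_mul, mul_diagonal, mul_comm (M x y)] at hxy
  simp only [show f x = f y from by exact_mod_cast mul_right_cancel₀ hM hxy]

/-- A weight absorbs a linear bound. -/
theorem norm_mul_wgt_neg_le {D : Op n} (hD : D.IsHermitian) {u : n → ℝ} (hu : ∀ x, 0 ≤ u x) {c : ℝ}
    (hc : 0 < c) (hcomm : Commute (diagonal fun x => (u x : ℂ) : Op n) D)
    (h1 : (c • (diagonal fun x => (u x : ℂ) : Op n) - D).PosSemidef)
    (h2 : (c • (diagonal fun x => (u x : ℂ) : Op n) + D).PosSemidef) :
    ‖D * wgt (fun x => -u x)‖ ≤ c := by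
  set H : Op n := wgt fun x => -u x / 2 with hH
  have hHH : H * H = wgt fun x => -u x := by
    rw [hH, wgt_mul]; congr 1; funext x; ring
  have hc' : Commute H D := commute_wgt hcomm fun r => -r / 2
  have e : D * wgt (fun x => -u x) = star H * D * H := by
    rw [hH, wgt_hermitian, ← hH, hc'.eq, mul_assoc, hHH]
  have hb : ((c • (1 : Op n)) - star H * (c • (diagonal fun x => (u x : ℂ) : Op n)) * H).PosSemidef := by
    have : c • (1 : Op n) - star H * (c • (diagonal fun x => (u x : ℂ) : Op n)) * H =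
        diagonal fun x => ((c - c * (u x * Real.exp (-u x)) : ℝ) : ℂ) := by
      rw [hH, wgt_hermitian, rdiag_smul, wgt, rdiag_mul, rdiag_mul,
        show c • (1 : Op n) = Matrix.diagonal fun _ => ((c : ℝ) : ℂ) from by
          rw [← diagonal_one, ← diagonal_smul]; congr 1; funext x; simp [Complex.real_smul],
        rdiag_sub]
      congr 1; funext x
      rw [show -u x = -u x / 2 + -u x / 2 by ring, Real.exp_add]
      push_cast; ring
    rw [this]
    refine rdiag_posSemidef fun x => ?_
    have h := Real.add_one_le_exp (u x)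
    have hle : u x * Real.exp (-u x) ≤ 1 := by
      rw [Real.exp_neg, ← div_eq_mul_inv, div_le_one (Real.exp_pos _)]
      linarith [hu x]
    nlinarith
  refine norm_le_of_sandwich ?_ hc ?_ ?_
  · rw [e]; exact isHermitian_conjTranspose_mul_mul _ hD
  · rw [e]
    have := hb.add (star_conj_posSemidef h1 H)
    simpa [mul_sub, sub_mul] using this
  · rw [e]
    have := hb.add (star_conj_posSemidef h2 H)
    simpa [mul_add, add_mul, sub_eq_add_neg, add_assoc, add_comm, add_left_comm] using this

open scoped MatrixOrder in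
/-- The determinant is monotone. -/
theorem det_le_det_of_posSemidef {m : Type*} [Fintype m] [DecidableEq m] {A B : Matrix m m ℝ}
    (hB : B.PosDef) (h : (A - B).PosSemidef) : B.det ≤ A.det := by
  obtain ⟨M, hM⟩ := CStarAlgebra.nonneg_iff_eq_star_mul_self.1 hB.posSemidef.nonneg
  have hd : B.det = M.det * M.det := by
    rw [hM, det_mul, star_eq_conjTranspose, det_conjTranspose, star_trivial]
  have hM0 : M.det ≠ 0 := fun h0 => hB.det_pos.ne' (by rw [hd, h0, zero_mul])
  set C := M⁻¹ᴴ * (A - B) * M⁻¹ with hCdef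
  have hC : C.PosSemidef := h.conjTranspose_mul_mul_same _
  have hA : A = Mᴴ * (1 + C) * M := by
    have h1 : M⁻¹ * M = 1 := nonsing_inv_mul _ (isUnit_iff_ne_zero.2 hM0)
    have h2 : Mᴴ * M⁻¹ᴴ = 1 := by rw [← conjTranspose_mul, h1, conjTranspose_one]
    rw [mul_add, add_mul, mul_one, hCdef, ← star_eq_conjTranspose, ← hM, ← mul_assoc, ← mul_assoc,
      star_eq_conjTranspose, h2, one_mul, mul_assoc, h1, mul_one, add_sub_cancel]
  have hS : (1 + C).IsHermitian := isHermitian_one.add hC.isHermitian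
  have h1 : 1 ≤ (1 + C).det := by
    rw [hS.det_eq_prod_eigenvalues]
    simp only [RCLike.ofReal_real_eq_id, id_eq]
    refine Finset.one_le_prod fun i _ => ?_
    rw [hS.eigenvalues_eq i]
    simp only [RCLike.re_to_real, Matrix.add_mulVec, Matrix.one_mulVec, dotProduct_add]
    have hn : star (⇑(hS.eigenvectorBasis i)) ⬝ᵥ ⇑(hS.eigenvectorBasis i) = 1 := by
      have := real_inner_self_eq_norm_sq (hS.eigenvectorBasis i)
      rw [hS.eigenvectorBasis.orthonormal.1 i, one_pow, PiLp.inner_apply] at this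
      simpa [dotProduct, mul_comm, sq] using this
    rw [hn]
    linarith [hC.dotProduct_mulVec_nonneg (⇑(hS.eigenvectorBasis i))]
  rw [hd, hA, det_mul, det_mul, det_conjTranspose, star_trivial]
  calc M.det * M.det = M.det * M.det * 1 := (mul_one _).symm
    _ ≤ M.det * M.det * (1 + C).det := mul_le_mul_of_nonneg_left h1 (mul_self_nonneg _)
    _ = M.det * (1 + C).det * M.det := by ring

/-- Glue local solutions on growing intervals. -/
theorem exists_glue {E : Type*} {f : ℕ → ℝ → E} {a : ℝ}
    (h : ∀ k l, k ≤ l → EqOn (f k) (f l) (Icc a (a + k + 1))) :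
    ∃ F : ℝ → E, F a = f 0 a ∧ ∀ t, a ≤ t → ∃ k : ℕ, t ≤ a + k + 1 ∧ F =ᶠ[𝓝 t] f k := by
  refine ⟨fun t => if a ≤ t then f ⌈t - a⌉₊ t else f 0 t, by simp, fun t ht => ?_⟩
  have key : ∀ (k : ℕ) (s : ℝ), a ≤ s → s ≤ a + k + 1 → f ⌈s - a⌉₊ s = f k s := by
    intro k s hs hsk
    rcases le_total k ⌈s - a⌉₊ with hl | hl
    · exact (h _ _ hl ⟨hs, hsk⟩).symm
    · exact h _ _ hl ⟨hs, by linarith [Nat.le_ceil (s - a)]⟩
  rcases ht.eq_or_lt with rfl | hlt
  · refine ⟨0, by norm_num, ?_⟩
    filter_upwards [Iio_mem_nhds (lt_add_one a)] with s hs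
    split_ifs with has
    · exact key 0 s has (by simpa using hs.le)
    · rfl
  · refine ⟨⌈t - a⌉₊, by linarith [Nat.le_ceil (t - a)], ?_⟩
    filter_upwards [Ioi_mem_nhds hlt,
      Iio_mem_nhds (show t < a + ⌈t - a⌉₊ + 1 by linarith [Nat.le_ceil (t - a)])] with s h1 h2
    rw [if_pos (le_of_lt h1)]
    exact key _ s (le_of_lt h1) (le_of_lt h2)

end Vale.Agent.P225.Trunc
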