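import Vale.Agent.P225.Path.Metric
import Vale.Agent.P225.System.Trunc.Mat

/-!
P225, module F: the link matrices of a stage are within `K ε` of the matrices of the line.
-/

noncomputable section

namespace Vale.Agent.P225.Trunc

open Matrix Real SU2

theorem bump_eq_zero {x : ℝ} (h : x ≤ 0 ∨ 1 ≤ x) : bump x = 0 := by
  unfold bump
  rcases h with h | h
  · have e : (fun u => smoothTransition (2 * u - 1 / 2)) =ᶠ[nhds x] fun _ => 0 := by
      filter_upwards [Iio_mem_nhds (show x < 1 / 4 by linarith)] with u hu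
      have hu' : u < 1 / 4 := hu
      exact smoothTransition.zero_of_nonpos (by linarith)
    rw [e.deriv_eq, deriv_const]
  · have e : (fun u => smoothTransition (2 * u - 1 / 2)) =ᶠ[nhds x] fun _ => 1 := by
      filter_upwards [Ioi_mem_nhds (show 3 / 4 < x by linarith)] with u hu
      have hu' : 3 / 4 < u := hu
      exact smoothTransition.one_of_one_le (by linarith)
    rw [e.deriv_eq, deriv_const]

theorem bump_continuous : Continuous bump := by
  have h : ContDiff ℝ 1 fun u => smoothTransition (2 * u - 1 / 2) :=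
    smoothTransition.contDiff.comp ((contDiff_const.mul contDiff_id).sub contDiff_const)
  exact h.continuous_deriv le_rfl

theorem exists_bump_bound : ∃ M : ℝ, 0 < M ∧ ∀ x, |bump x| ≤ M := by
  obtain ⟨C, hC⟩ := isCompact_Icc.exists_bound_of_continuousOn
    (bump_continuous.continuousOn (s := Set.Icc (0 : ℝ) 1))
  refine ⟨max C 1, lt_max_of_lt_right one_pos, fun x => ?_⟩
  by_cases h : x ∈ Set.Icc (0 : ℝ) 1
  · exact (hC x h).trans (le_max_left _ _)
  · rw [bump_eq_zero ?_, abs_zero]
    · exact le_trans zero_le_one (le_max_right _ _)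
    · rw [Set.mem_Icc, not_and_or] at h
      rcases h with h | h
      · exact Or.inl (not_le.1 h).le
      · exact Or.inr (not_le.1 h).le

theorem stageCtrl_eq_zero (σ : StagePlan) (p : ℕ → ℝ) {s : ℝ}
    (h : s ≤ 1 ∨ (σ.len : ℝ) + 1 ≤ s) : stageCtrl σ p s = 0 := by
  refine Finset.sum_eq_zero fun k _ => ?_
  have hk : (k : ℝ) + 1 ≤ σ.len := by exact_mod_cast Nat.succ_le_of_lt k.2
  have hk0 : (0 : ℝ) ≤ (k : ℝ) := Nat.cast_nonneg _
  rw [bump_eq_zero ?_, mul_zero, zero_smul]
  rcases h with h | h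
  · exact Or.inl (by linarith)
  · exact Or.inr (by linarith)

theorem stageTheta_mem (σ : StagePlan) (s : ℝ) : 0 ≤ stageTheta σ s ∧ stageTheta σ s ≤ 1 := by
  unfold stageTheta
  set L : ℝ := (σ.len : ℝ) + σ.wait + 1 with hL
  have hL1 : 1 ≤ L := by rw [hL]; have : (0 : ℝ) ≤ σ.len + σ.wait := by positivity
                         linarith
  by_cases h : 2 * (s - L) - 1 / 2 ≤ 0
  · rw [smoothTransition.zero_of_nonpos h]
    have := smoothTransition.nonneg (2 * s - 1 / 2)
    have := smoothTransition.le_one (2 * s - 1 / 2)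
    constructor <;> linarith
  · rw [smoothTransition.one_of_one_le (x := 2 * s - 1 / 2) (by linarith)]
    have := smoothTransition.nonneg (2 * (s - L) - 1 / 2)
    have := smoothTransition.le_one (2 * (s - L) - 1 / 2)
    constructor <;> linarith

theorem stageTheta_zero (σ : StagePlan) : stageTheta σ 0 = 1 := by
  have h : (0 : ℝ) ≤ σ.len + σ.wait := by positivity
  rw [stageTheta, smoothTransition.zero_of_nonpos (by norm_num),
    smoothTransition.zero_of_nonpos (by linarith)]
  norm_num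

theorem stageTheta_dur (σ : StagePlan) : stageTheta σ σ.dur = 1 := by
  have h : (0 : ℝ) ≤ σ.dwell := by positivity
  have h' : (0 : ℝ) ≤ σ.len + σ.wait + σ.dwell := by positivity
  rw [stageTheta, StagePlan.dur, smoothTransition.one_of_one_le (by linarith),
    smoothTransition.one_of_one_le (by linarith)]
  norm_num

theorem linePar_one (P : ℝ) (G : Fin 3) : linePar P 1 G = fun _ => P := by
  funext k
  rw [linePar]
  have : Real.sqrt (1 + 2 * 1) = Real.sqrt 3 := by norm_num
  rw [this, ite_self, mul_one, mul_div_assoc, mul_comm, div_mul_cancel₀]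
  positivity

theorem linePar_nonneg {P θ : ℝ} (hP : 0 ≤ P) (hθ : 0 ≤ θ) (G k : Fin 3) : 0 ≤ linePar P θ G k := by
  unfold linePar
  split_ifs <;> positivity

theorem linePar_ge {P θ : ℝ} (hP : 0 ≤ P) (hθ : 0 ≤ θ) (hθ1 : θ ≤ 1) {G k : Fin 3} (hk : k ≠ G) :
    P ≤ linePar P θ G k := by
  unfold linePar
  rw [if_neg hk, mul_one, le_div_iff₀ (by positivity), mul_comm]
  exact mul_le_mul_of_nonneg_right (Real.sqrt_le_sqrt (by linarith)) hP

theorem adQ_posSemidef (G : Fin 3) {P : Fin 3 → ℝ} (hP : ∀ k, 0 ≤ P k) :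
    (adQ G P).PosSemidef := by
  refine .of_dotProduct_mulVec_nonneg ?_ fun w => ?_
  · refine Matrix.IsHermitian.ext fun a b => ?_
    obtain ⟨a1, a2⟩ := a
    obtain ⟨b1, b2⟩ := b
    cases a1 <;> cases b1 <;> simp [adQ, eq_comm]
  · have e : star w ⬝ᵥ adQ G P *ᵥ w = ∑ k, (P G * (w (false, k) + w (true, k)) ^ 2 +
        P (G + 1) * w (false, k) ^ 2 + P (G + 2) * w (true, k) ^ 2) := by
      simp [dotProduct, mulVec, adQ, Fintype.sum_prod_type, Fintype.sum_bool, Fin.sum_univ_three]
      ring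
    rw [e]
    exact Finset.sum_nonneg fun k _ => by have := hP G; have := hP (G + 1); have := hP (G + 2); positivity

theorem adQ_sub_smul (G : Fin 3) (P : Fin 3 → ℝ) (c : ℝ) :
    adQ G P - c • 1 = adQ G fun k => if k = G then P k else P k - c := by
  have h1 : G + 1 ≠ G := by revert G; decide
  have h2 : G + 2 ≠ G := by revert G; decide
  ext ⟨a, i⟩ ⟨b, j⟩
  cases a <;> cases b <;> by_cases h : i = j <;> simp [adQ, h, h1, h2, one_apply] <;> ring

theorem line_sub_posSemidef {P θ c : ℝ} (hP : 0 ≤ P) (hθ : 0 ≤ θ) (hθ1 : θ ≤ 1) (hc : c ≤ P)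
    (G : Fin 3) : (adQ G (linePar P θ G) - c • (1 : LinkMat)).PosSemidef := by
  rw [adQ_sub_smul]
  refine adQ_posSemidef G fun k => ?_
  split_ifs with h
  · exact linePar_nonneg hP hθ G k
  · have := linePar_ge hP hθ hθ1 h; linarith

theorem line_posDef {P θ : ℝ} (hP : 0 < P) (hθ : 0 ≤ θ) (hθ1 : θ ≤ 1) (G : Fin 3) :
    (adQ G (linePar P θ G)).PosDef := by
  have h := Matrix.PosDef.posSemidef_add (line_sub_posSemidef hP.le hθ hθ1 le_rfl G)
    (Matrix.PosDef.smul (Matrix.PosDef.one (n := Bool × Fin 3) (R := ℝ)) hP)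
  simpa using h

/-- Outside the control a stage is on the line. -/
theorem stageQ_free (σ : StagePlan) (ε : ℝ) {P : ℝ} (hP : 0 < P) (p : ℕ → ℝ) {s : ℝ}
    (h : stageCtrl σ p s = 0) :
    stageQ σ ε P p s = adQ σ.gauge (linePar P (stageTheta σ s) σ.gauge) := by
  have hd := (line_posDef hP (stageTheta_mem σ s).1 (stageTheta_mem σ s).2 σ.gauge).det_pos.ne'
  simp [stageQ, h, div_self hd]

theorem ctrlDir_bound (ik : Fin 3 × Fin 3) :
    ((1 : LinkMat) + ctrlDir ik).PosSemidef ∧ ((1 : LinkMat) - ctrlDir ik).PosSemidef := by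
  obtain ⟨i, k⟩ := ik
  have hh : (ctrlDir (i, k)).IsHermitian := Matrix.IsHermitian.ext fun a b => by
    simp only [ctrlDir, star_trivial]
    exact if_congr (by tauto) rfl rfl
  have e : ∀ w : Bool × Fin 3 → ℝ,
      star w ⬝ᵥ ctrlDir (i, k) *ᵥ w = 2 * (w (false, i) * w (true, k)) := fun w => by
    have hd : ctrlDir (i, k) = Matrix.single (false, i) (true, k) 1 +
        Matrix.single (true, k) (false, i) 1 := by
      ext a b
      obtain ⟨a1, a2⟩ := a
      obtain ⟨b1, b2⟩ := b
      cases a1 <;> cases b1 <;> simp [ctrlDir, Matrix.single_apply, eq_comm, and_comm]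
    simp [hd, add_mulVec, Matrix.single_mulVec, dotProduct, Function.update_apply, add_mul, mul_add,
      Finset.sum_add_distrib]
    ring
  have hs : ∀ w : Bool × Fin 3 → ℝ,
      w (false, i) ^ 2 + w (true, k) ^ 2 ≤ star w ⬝ᵥ (1 : LinkMat) *ᵥ w := fun w => by
    have := Finset.sum_le_sum_of_subset_of_nonneg (f := fun a => w a * w a)
      (Finset.subset_univ {(false, i), (true, k)}) (fun a _ _ => mul_self_nonneg _)
    simpa [dotProduct, Finset.sum_pair, sq] using this
  constructor
  · refine .of_dotProduct_mulVec_nonneg (isHermitian_one.add hh) fun w => ?_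
    rw [add_mulVec, dotProduct_add, e]
    nlinarith [hs w, sq_nonneg (w (false, i) + w (true, k))]
  · refine .of_dotProduct_mulVec_nonneg (isHermitian_one.sub hh) fun w => ?_
    rw [sub_mulVec, dotProduct_sub, e]
    nlinarith [hs w, sq_nonneg (w (false, i) - w (true, k))]

theorem smul_dir_bound {c B : ℝ} (hc : |c| ≤ B) (ik : Fin 3 × Fin 3) :
    (B • (1 : LinkMat) - c • ctrlDir ik).PosSemidef ∧
      (B • (1 : LinkMat) + c • ctrlDir ik).PosSemidef := by
  have h := ctrlDir_bound ik
  obtain ⟨h1, h2⟩ := abs_le.1 hc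
  constructor
  · have := (h.1.smul (show (0 : ℝ) ≤ (B - c) / 2 by linarith)).add
      (h.2.smul (show (0 : ℝ) ≤ (B + c) / 2 by linarith))
    convert this using 1
    module
  · have := (h.1.smul (show (0 : ℝ) ≤ (B + c) / 2 by linarith)).add
      (h.2.smul (show (0 : ℝ) ≤ (B - c) / 2 by linarith))
    convert this using 1
    module

/-- A stage is within `K ε` of the line, in the order. -/
theorem stageQ_near (N : ℕ) (box : ℝ) : ∃ K : ℝ, 0 < K ∧ ∀ (σ : StagePlan) (ε P : ℝ) (p : ℕ → ℝ)
    (s : ℝ), σ.len ≤ N → (∀ k, |p k| ≤ box) → 0 ≤ ε → K * ε ≤ 1 / 2 →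
      67 / 10 ≤ P → P ≤ 27 / 4 →
      ((1 + K * ε) • adQ σ.gauge (linePar P (stageTheta σ s) σ.gauge) - stageQ σ ε P p s).PosSemidef ∧
      (stageQ σ ε P p s - (1 - K * ε) • adQ σ.gauge (linePar P (stageTheta σ s) σ.gauge)).PosSemidef := by
  obtain ⟨M, hM0, hM⟩ := exists_bump_bound
  refine ⟨4 * (3 * N * |box| * M + 1), by positivity, ?_⟩
  intro σ ε P p s hlen hp hε hK hP1 hP2
  set K₁ := 3 * (N : ℝ) * |box| * M + 1 with hK₁
  set k := K₁ * ε with hk
  have hk0 : 0 ≤ k := by positivity
  have hk1 : k ≤ 1 / 8 := by nlinarith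
  obtain ⟨hθ0, hθ1⟩ := stageTheta_mem σ s
  set B0 : LinkMat := adQ σ.gauge (linePar P (stageTheta σ s) σ.gauge) with hB0
  have hB : B0.PosDef := line_posDef (by linarith) hθ0 hθ1 _
  have hB6 : (B0 - (6 : ℝ) • (1 : LinkMat)).PosSemidef :=
    line_sub_posSemidef (by linarith) hθ0 hθ1 (by linarith) _
  set r := Real.sqrt 3 * P * ε with hr
  have hr0 : 0 ≤ r := by
    have : 0 ≤ P := by linarith
    positivity
  have hr1 : r ≤ 14 * ε := by
    have h2 : Real.sqrt 3 ≤ 2 := Real.sqrt_le_iff.2 ⟨by norm_num, by norm_num⟩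
    have : Real.sqrt 3 * P ≤ 14 := by nlinarith [Real.sqrt_nonneg 3]
    exact mul_le_mul_of_nonneg_right this hε
  have hterm : ∀ i : Fin σ.len, |r * (p i * bump (s - (i + 1)))| ≤ 14 * ε * (|box| * M) := fun i => by
    rw [abs_mul r, abs_mul (p i), abs_of_nonneg hr0]
    exact mul_le_mul hr1 (mul_le_mul ((hp i).trans (le_abs_self _)) (hM _) (abs_nonneg _)
      (abs_nonneg _)) (by positivity) (by positivity)
  set X : LinkMat := r • stageCtrl σ p s with hX
  have hX' : X = ∑ i : Fin σ.len, (r * (p i * bump (s - (i + 1)))) • ctrlDir (σ.letter i) := by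
    simp [hX, stageCtrl, Finset.smul_sum, smul_smul]
  have hsum : (6 * k - (σ.len : ℝ) * (14 * ε * (|box| * M))) ≥ 0 := by
    have h1 : (σ.len : ℝ) ≤ N := by exact_mod_cast hlen
    have h2 : (σ.len : ℝ) * (14 * ε * (|box| * M)) ≤ N * (14 * ε * (|box| * M)) :=
      mul_le_mul_of_nonneg_right h1 (by positivity)
    have h3 : 0 ≤ (N : ℝ) * |box| * M * ε := by positivity
    rw [hk, hK₁]
    nlinarith
  have hone : ((6 * k - (σ.len : ℝ) * (14 * ε * (|box| * M))) • (1 : LinkMat)).PosSemidef :=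
    Matrix.PosSemidef.one.smul hsum
  have hXp : ((6 * k) • (1 : LinkMat) - X).PosSemidef := by
    have := hone.add (Matrix.posSemidef_sum Finset.univ fun i _ =>
      (smul_dir_bound (hterm i) (σ.letter i)).1)
    rw [hX']
    convert this using 1
    simp [Finset.sum_sub_distrib, sub_smul, mul_smul, Finset.smul_sum, ← Nat.cast_smul_eq_nsmul ℝ]
  have hXm : ((6 * k) • (1 : LinkMat) + X).PosSemidef := by
    have := hone.add (Matrix.posSemidef_sum Finset.univ fun i _ =>
      (smul_dir_bound (hterm i) (σ.letter i)).2)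
    rw [hX']
    convert this using 1
    simp [Finset.sum_add_distrib, sub_smul, mul_smul, Finset.smul_sum, ← Nat.cast_smul_eq_nsmul ℝ]
    module
  have hup : ((1 + k) • B0 - (B0 + X)).PosSemidef := by
    have := (hB6.smul hk0).add hXp
    convert this using 1
    module
  have hlo : ((B0 + X) - (1 - k) • B0).PosSemidef := by
    have := (hB6.smul hk0).add hXm
    convert this using 1
    module
  have hlB : ((1 - k) • B0).PosDef := hB.smul (by linarith)
  have hQ : (B0 + X).PosDef := by
    have := Matrix.PosDef.posSemidef_add hlo hlB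
    simpa using this
  have hc : Fintype.card (Bool × Fin 3) = 6 := by simp
  have d1 := det_le_det_of_posSemidef hlB hlo
  have d2 := det_le_det_of_posSemidef hQ hup
  rw [det_smul, hc] at d1 d2
  set c := (B0.det / (B0 + X).det) ^ (1 / 6 : ℝ) with hcdef
  have hdB := hB.det_pos
  have hdQ := hQ.det_pos
  have root : ∀ x : ℝ, 0 ≤ x → (x ^ 6) ^ (1 / 6 : ℝ) = x := fun x hx => by
    rw [← Real.rpow_natCast x 6, ← Real.rpow_mul hx]; norm_num
  have c1 : 1 ≤ c * (1 + k) := by
    have h : ((1 + k)⁻¹) ^ 6 ≤ B0.det / (B0 + X).det := by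
      rw [inv_pow, le_div_iff₀ hdQ, inv_mul_le_iff₀ (by positivity)]
      linarith
    have := Real.rpow_le_rpow (z := (1 / 6 : ℝ)) (by positivity) h (by norm_num)
    rw [root _ (by positivity), ← hcdef] at this
    rwa [inv_le_iff_one_le_mul₀ (by positivity)] at this
  have c2 : c * (1 - k) ≤ 1 := by
    have hk' : 0 < 1 - k := by linarith
    have h : B0.det / (B0 + X).det ≤ ((1 - k)⁻¹) ^ 6 := by
      rw [inv_pow, div_le_iff₀ hdQ, le_inv_mul_iff₀ (by positivity)]
      linarith
    have := Real.rpow_le_rpow (z := (1 / 6 : ℝ)) (by positivity) h (by norm_num)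
    rw [root _ (by positivity), ← hcdef, inv_eq_one_div, le_div_iff₀ hk'] at this
    exact this
  have hc0 : 0 < c := by rw [hcdef]; positivity
  have hQdef : stageQ σ ε P p s = c • (B0 + X) := rfl
  rw [hQdef, show 4 * K₁ * ε = 4 * k by rw [hk]; ring]
  constructor
  · have := (hup.smul hc0.le).add (hB.posSemidef.smul
      (show 0 ≤ 1 + 4 * k - c * (1 + k) by nlinarith))
    convert this using 1
    module
  · have := (hlo.smul hc0.le).add (hB.posSemidef.smul
      (show 0 ≤ c * (1 - k) - (1 - 4 * k) by nlinarith))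
    convert this using 1
    module

end Vale.Agent.P225.Trunc
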