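import Vale.Agent.P225.System.Free
import Vale.Agent.P225.System.Trunc.Link
import Vale.Agent.P225.Stage.Gauge

/-!
P225, module F: the truncated operator of the path: times of the stages, the free value, continuity,
positivity and its distance from the free operator.
-/

noncomputable section

namespace Vale.Agent.P225.Trunc

open Matrix SU2 Set
open scoped ComplexOrder Matrix.Norms.L2Operator

variable {d : PathData} {r₂ β φ₀ : ℝ} {K : ℕ}

/-- The operator of the control-free path. -/
def baseDiag (d : PathData) (K : ℕ) (t : ℝ) : Op (PntK K) :=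
  diagonal fun x => ((baseCoef d (lab x.out) t : ℝ) : ℂ)

/-- The operator of the path, as in `truncOp`. -/
abbrev pathMat (d : PathData) (p : Param) (K : ℕ) (t : ℝ) : Op (PntK K) :=
  gaugeMat K (pathGauge d t) (pathOp d p t)

theorem speed_pos {j : ℕ} (hj : 1 ≤ j) : 0 < speed j := by
  have : (0 : ℝ) < j := by exact_mod_cast hj
  unfold speed; positivity

theorem speed_le_one {j : ℕ} (hj : 1 ≤ j) : speed j ≤ 1 := by
  unfold speed
  exact inv_le_one_of_one_le₀ (one_le_pow₀ (by exact_mod_cast hj))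

theorem speed_succ_ge {j : ℕ} (hj : 1 ≤ j) : speed j / 16 ≤ speed (j + 1) := by
  have h : (1 : ℝ) ≤ j := by exact_mod_cast hj
  unfold speed
  rw [div_le_iff₀ (by norm_num), ← div_eq_inv_mul, le_div_iff₀ (by positivity),
    inv_mul_le_iff₀ (by positivity)]
  calc ((j + 1 : ℕ) : ℝ) ^ 4 ≤ (2 * (j : ℝ)) ^ 4 :=
        pow_le_pow_left₀ (by positivity) (by push_cast; linarith) 4
    _ = (j : ℝ) ^ 4 * 16 := by ring

theorem speed_anti {i j : ℕ} (hi : 1 ≤ i) (h : i ≤ j) : speed j ≤ speed i := by
  have : (0 : ℝ) < i := by exact_mod_cast hi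
  unfold speed
  gcongr

theorem one_le_idx (hd : d.Good r₂ β φ₀) (i : ℕ) : 1 ≤ d.j₀ + i := le_add_right hd.j₀_pos

theorem three_le_dur (σ : StagePlan) : 3 ≤ σ.dur := by
  have h : (0 : ℝ) ≤ σ.len + σ.wait + σ.dwell := by positivity
  simp only [StagePlan.dur]; linarith

theorem stageStart_zero (i : ℕ) : stageStart d i 0 = clusterStart d i := by
  simp [stageStart, planDur]

theorem stageStart_succ {i l : ℕ} (hl : l < (d.plan (d.j₀ + i)).length) :
    stageStart d i (l + 1) =
      stageStart d i l + ((d.plan (d.j₀ + i))[l]).dur / speed (d.j₀ + i) := by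
  unfold stageStart planDur
  rw [List.map_take, List.map_take, List.sum_take_succ _ _ (by simpa using hl), List.getElem_map]
  ring

theorem stageStart_lt_succ (hd : d.Good r₂ β φ₀) {i l : ℕ} (hl : l < (d.plan (d.j₀ + i)).length) :
    stageStart d i l < stageStart d i (l + 1) := by
  rw [stageStart_succ hl]
  have := (three_le_dur ((d.plan (d.j₀ + i))[l]))
  have := speed_pos (one_le_idx hd i)
  have : 0 < ((d.plan (d.j₀ + i))[l]).dur / speed (d.j₀ + i) := div_pos (by linarith) (by assumption)
  linarith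

theorem stageStart_mono (hd : d.Good r₂ β φ₀) (i : ℕ) {l m : ℕ} (h : l ≤ m)
    (hm : m ≤ (d.plan (d.j₀ + i)).length) : stageStart d i l ≤ stageStart d i m := by
  induction m, h using Nat.le_induction with
  | base => exact le_rfl
  | succ m _ ih => exact (ih (by omega)).trans (stageStart_lt_succ hd (by omega)).le

theorem clusterStart_succ_eq (i : ℕ) :
    clusterStart d (i + 1) =
      stageStart d i (d.plan (d.j₀ + i)).length + ((d.j₀ + i : ℕ) : ℝ) ^ 5 := by
  simp only [stageStart, List.take_length, clusterStart]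

theorem stageEnd_lt (hd : d.Good r₂ β φ₀) (i : ℕ) :
    stageStart d i (d.plan (d.j₀ + i)).length < clusterStart d (i + 1) := by
  rw [clusterStart_succ_eq]
  have : (0 : ℝ) < ((d.j₀ + i : ℕ) : ℝ) := by exact_mod_cast one_le_idx hd i
  linarith [pow_pos this 5]

theorem stageStart_lt_cluster (hd : d.Good r₂ β φ₀) {i l : ℕ}
    (hl : l ≤ (d.plan (d.j₀ + i)).length) : stageStart d i l < clusterStart d (i + 1) :=
  (stageStart_mono hd i hl le_rfl).trans_lt (stageEnd_lt hd i)

theorem clusterStart_le_stageStart (hd : d.Good r₂ β φ₀) {i l : ℕ}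
    (hl : l ≤ (d.plan (d.j₀ + i)).length) : clusterStart d i ≤ stageStart d i l :=
  (stageStart_zero i).symm.le.trans (stageStart_mono hd i (Nat.zero_le l) hl)

theorem clusterStart_ge (hd : d.Good r₂ β φ₀) (i : ℕ) : (d.j₀ : ℝ) ^ 6 ≤ clusterStart d i :=
  (clusterStart_bounds hd).1.monotone (Nat.zero_le i)

theorem stageStart_ge (hd : d.Good r₂ β φ₀) {i l : ℕ} (hl : l ≤ (d.plan (d.j₀ + i)).length) :
    (d.j₀ : ℝ) ^ 6 ≤ stageStart d i l :=
  (clusterStart_ge hd i).trans (clusterStart_le_stageStart hd hl)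

theorem startTime_le (hd : d.Good r₂ β φ₀) {t : ℝ} (h : (d.j₀ : ℝ) ^ 6 ≤ t) : startTime r₂ ≤ t := by
  have := hd.pre_late
  unfold startTime
  linarith

theorem not_inStage_dwell (hd : d.Good r₂ β φ₀) {i : ℕ} {t : ℝ}
    (h : t ∈ Ico (stageStart d i (d.plan (d.j₀ + i)).length) (clusterStart d (i + 1))) :
    ∀ il, ¬InStage d t il := by
  rintro ⟨i', l'⟩ ⟨hl, h1, h2⟩
  simp only at hl h1 h2
  have hm := (clusterStart_bounds hd).1.monotone
  rcases lt_trichotomy i' i with hi | rfl | hi
  · have := (stageStart_lt_cluster hd (Nat.succ_le_of_lt hl)).le.trans (hm (Nat.succ_le_of_lt hi))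
    have := clusterStart_le_stageStart hd (i := i) (l := (d.plan (d.j₀ + i)).length) le_rfl
    linarith [h.1]
  · have := stageStart_mono hd i' (Nat.succ_le_of_lt hl) le_rfl
    linarith [h.1]
  · have := (hm (Nat.succ_le_of_lt hi)).trans (clusterStart_le_stageStart hd hl.le)
    linarith [h.2]

theorem not_inStage_pre (hd : d.Good r₂ β φ₀) {t : ℝ} (h : t < (d.j₀ : ℝ) ^ 6) :
    ∀ il, ¬InStage d t il := fun _ hil =>
  (lt_of_lt_of_le h (stageStart_ge hd hil.1.le)).not_ge hil.2.1

theorem inBox_zero (hd : d.Good r₂ β φ₀) : InBox d fun _ _ _ => 0 :=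
  fun _ _ _ => by simpa using hd.box_nonneg

theorem gaugeMat_adQ (G : Fin 3) (P : Fin 3 → ℝ) :
    gaugeMat K G (linkOp (adQ G P)) =
      diagonal fun x : PntK K => ((∑ k, P k * cas (lab x.out k) : ℝ) : ℂ) := by
  ext x y
  simp only [gaugeMat, gaugeEntry_adQ, diagonal_apply, PntK.out_injective.eq_iff]

theorem baseCoef_eq {t : ℝ} {G : Fin 3} {P : Fin 3 → ℝ} (hG : pathGauge d t = G)
    (hQ : pathQ d (fun _ _ _ => 0) t = adQ G P) (l : Lbl) :
    baseCoef d l t = ∑ k, P k * cas (l k) := by
  have h : basePar d t = P := by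
    funext k
    simp only [basePar, hQ, hG]
    fin_cases G <;> fin_cases k <;> simp [adQ]
  simp only [baseCoef, h]

theorem pathMat_free {p : Param} {t : ℝ} {G : Fin 3} {P : Fin 3 → ℝ}
    (hG : pathGauge d t = G) (h : pathQ d p t = adQ G P)
    (h0 : pathQ d (fun _ _ _ => 0) t = adQ G P) : pathMat d p K t = baseDiag d K t := by
  show gaugeMat K (pathGauge d t) (linkOp (pathQ d p t)) = _
  rw [h, hG, gaugeMat_adQ]
  exact congrArg diagonal (funext fun x => by rw [baseCoef_eq hG h0])

theorem pathMat_outside (hd : d.Good r₂ β φ₀) (p : Param) {t : ℝ} (h : ∀ il, ¬InStage d t il) :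
    pathMat d p K t = baseDiag d K t ∧
      ∀ l, baseCoef d l t =
        ∑ k, (if (d.j₀ : ℝ) ^ 6 ≤ t then d.scale t else d.pre t k) * cas (l k) := by
  obtain ⟨hG, hQ⟩ := pathQ_outside hd p h
  have hQ0 := (pathQ_outside hd (fun _ _ _ => 0) h).2
  by_cases ht : (d.j₀ : ℝ) ^ 6 ≤ t
  · rw [if_pos ht] at hQ hQ0
    simp only [if_pos ht]
    exact ⟨pathMat_free hG hQ hQ0, baseCoef_eq hG hQ0⟩
  · rw [if_neg ht] at hQ hQ0
    simp only [if_neg ht]
    exact ⟨pathMat_free hG hQ hQ0, baseCoef_eq hG hQ0⟩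

/-- A stage operator at time `t`. -/
def stageMat (d : PathData) (σ : StagePlan) (q : ℕ → ℝ) (i : ℕ) (t₀ : ℝ) (K : ℕ) (t : ℝ) :
    Op (PntK K) :=
  gaugeMat K σ.gauge
    (linkOp (stageQ σ (speed (d.j₀ + i)) (d.scale t) q (speed (d.j₀ + i) * (t - t₀))))

theorem pathMat_stage (hd : d.Good r₂ β φ₀) (p : Param) {t : ℝ} {i l : ℕ}
    (hl : l < (d.plan (d.j₀ + i)).length)
    (h : t ∈ Ico (stageStart d i l) (stageStart d i (l + 1))) :
    pathMat d p K t = stageMat d ((d.plan (d.j₀ + i))[l]) (p i l) i (stageStart d i l) K t ∧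
      baseDiag d K t = gaugeMat K ((d.plan (d.j₀ + i))[l]).gauge (linkOp
        (adQ ((d.plan (d.j₀ + i))[l]).gauge (linePar (d.scale t)
          (stageTheta ((d.plan (d.j₀ + i))[l]) (speed (d.j₀ + i) * (t - stageStart d i l)))
          ((d.plan (d.j₀ + i))[l]).gauge))) := by
  obtain ⟨hG, hQ⟩ := pathQ_inStage hd hl h p
  obtain ⟨-, hQ0⟩ := pathQ_inStage hd hl h (fun _ _ _ => 0)
  refine ⟨?_, ?_⟩
  · show gaugeMat K (pathGauge d t) (linkOp (pathQ d p t)) = _
    rw [hQ, hG]
    rfl
  · have hc : stageCtrl ((d.plan (d.j₀ + i))[l]) (fun _ => 0)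
        (speed (d.j₀ + i) * (t - stageStart d i l)) = 0 := by simp [stageCtrl]
    rw [stageQ_free _ _ (hd.scale_pos t) _ hc] at hQ0
    rw [gaugeMat_adQ]
    exact congrArg diagonal (funext fun x => by rw [baseCoef_eq hG hQ0])

theorem pathMat_stage_free (hd : d.Good r₂ β φ₀) (p : Param) {t : ℝ} {i l : ℕ}
    (hl : l < (d.plan (d.j₀ + i)).length)
    (h : t ∈ Ico (stageStart d i l) (stageStart d i (l + 1)))
    (hs : speed (d.j₀ + i) * (t - stageStart d i l) ≤ 1 ∨
      (((d.plan (d.j₀ + i))[l]).len : ℝ) + 1 ≤ speed (d.j₀ + i) * (t - stageStart d i l)) :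
    pathMat d p K t = baseDiag d K t := by
  obtain ⟨h1, h2⟩ := pathMat_stage hd p hl h (K := K)
  rw [h1, h2, stageMat, stageQ_free _ _ (hd.scale_pos t) _ (stageCtrl_eq_zero _ _ hs)]

/-- At the boundary of a stage the operator is the normal one. -/
theorem pathMat_boundary (hd : d.Good r₂ β φ₀) (p : Param) {i l : ℕ}
    (hl : l ≤ (d.plan (d.j₀ + i)).length) :
    pathMat d p K (stageStart d i l) = baseDiag d K (stageStart d i l) ∧
      ∀ a, baseCoef d a (stageStart d i l) = ∑ k, d.scale (stageStart d i l) * cas (a k) := by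
  rcases hl.lt_or_eq with hlt | rfl
  · have hm : stageStart d i l ∈ Ico (stageStart d i l) (stageStart d i (l + 1)) :=
      ⟨le_rfl, stageStart_lt_succ hd hlt⟩
    refine ⟨pathMat_stage_free hd p hlt hm (Or.inl (by simp)), fun a => ?_⟩
    obtain ⟨hG, hQ0⟩ := pathQ_inStage hd hlt hm (fun _ _ _ => 0)
    rw [stageQ_free _ _ (hd.scale_pos _) _ (stageCtrl_eq_zero _ _ (Or.inl (by simp))),
      sub_self, mul_zero, stageTheta_zero, linePar_one] at hQ0
    exact baseCoef_eq hG hQ0 a
  · obtain ⟨h1, h2⟩ := pathMat_outside hd p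
      (not_inStage_dwell hd ⟨le_rfl, stageEnd_lt hd i⟩) (K := K)
    refine ⟨h1, fun a => ?_⟩
    rw [h2 a]
    simp only [if_pos (stageStart_ge hd le_rfl)]

/-- The normal operator with the scale at `t`. -/
def scaleDiag (d : PathData) (K : ℕ) (t : ℝ) : Op (PntK K) :=
  diagonal fun x => ((∑ k, d.scale t * cas (lab x.out k) : ℝ) : ℂ)

theorem pathMat_eq_scale (hd : d.Good r₂ β φ₀) (p : Param) {i l : ℕ}
    (hl : l ≤ (d.plan (d.j₀ + i)).length) :
    pathMat d p K (stageStart d i l) = scaleDiag d K (stageStart d i l) := by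
  obtain ⟨h1, h2⟩ := pathMat_boundary hd p hl (K := K)
  rw [h1]
  exact congrArg diagonal (funext fun x => by rw [h2])

theorem pathMat_dwell (hd : d.Good r₂ β φ₀) (p : Param) {i : ℕ} {t : ℝ}
    (h : t ∈ Icc (stageStart d i (d.plan (d.j₀ + i)).length) (clusterStart d (i + 1))) :
    pathMat d p K t = scaleDiag d K t ∧ pathMat d p K t = baseDiag d K t := by
  rcases h.2.lt_or_eq with hlt | rfl
  · obtain ⟨h1, h2⟩ := pathMat_outside hd p (not_inStage_dwell hd ⟨h.1, hlt⟩) (K := K)
    refine ⟨?_, h1⟩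
    rw [h1]
    refine congrArg diagonal (funext fun x => ?_)
    simp only [h2, if_pos ((stageStart_ge hd le_rfl).trans h.1)]
  · rw [← stageStart_zero]
    exact ⟨pathMat_eq_scale hd p (Nat.zero_le _), (pathMat_boundary hd p (Nat.zero_le _)).1⟩

theorem pathMat_pre (hd : d.Good r₂ β φ₀) (p : Param) {t : ℝ} (h : t ≤ (d.j₀ : ℝ) ^ 6) :
    pathMat d p K t = baseDiag d K t ∧ pathMat d p K t =
      diagonal fun x : PntK K => ((∑ k, d.pre t k * cas (lab x.out k) : ℝ) : ℂ) := by
  rcases h.lt_or_eq with hlt | rfl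
  · obtain ⟨h1, h2⟩ := pathMat_outside hd p (not_inStage_pre hd hlt) (K := K)
    refine ⟨h1, ?_⟩
    rw [h1]
    refine congrArg diagonal (funext fun x => ?_)
    simp only [h2, if_neg hlt.not_ge]
  · have h0 : stageStart d 0 0 = (d.j₀ : ℝ) ^ 6 := stageStart_zero 0
    have hb := pathMat_boundary hd p (i := 0) (Nat.zero_le _) (K := K)
    rw [h0] at hb
    refine ⟨hb.1, ?_⟩
    rw [hb.1]
    refine congrArg diagonal (funext fun x => ?_)
    simp only [hb.2, hd.pre_end _ (sub_le_self _ zero_le_one)]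

theorem continuousOn_gauge_linkOp {G : Fin 3} {Q : ℝ → LinkMat} {s : Set ℝ}
    (h : ∀ a b, ContinuousOn (fun t => Q t a b) s) :
    ContinuousOn (fun t => gaugeMat K G (linkOp (Q t))) s := by
  refine continuousOn_pi.2 fun x => continuousOn_pi.2 fun y => ?_
  show ContinuousOn (fun t => gaugeEntry G (linkOp (Q t)) x.out y.out) s
  unfold gaugeEntry
  split_ifs
  · refine continuousOn_finsetSum _ fun u _ => continuousOn_finsetSum _ fun v _ =>
      ((continuousOn_const).mul ?_).mul continuousOn_const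
    simp only [linkOp, Matrix.neg_apply, Matrix.sum_apply, Matrix.smul_apply, smul_eq_mul]
    exact (continuousOn_finsetSum _ fun a _ => continuousOn_finsetSum _ fun b _ =>
      (Complex.continuous_ofReal.comp_continuousOn (h a b)).mul continuousOn_const).neg
  · exact continuousOn_const

theorem continuous_rdiag {f : PntK K → ℝ → ℝ} (h : ∀ x, Continuous (f x)) :
    Continuous fun t => (diagonal fun x => ((f x t : ℝ) : ℂ) : Op (PntK K)) :=
  (continuous_pi fun x => Complex.continuous_ofReal.comp (h x)).matrix_diagonal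

theorem stageTheta_continuous (σ : StagePlan) : Continuous (stageTheta σ) := by
  unfold stageTheta
  exact (continuous_const.sub (Real.smoothTransition.continuous.comp (by fun_prop))).add
    (Real.smoothTransition.continuous.comp (by fun_prop))

theorem continuousOn_stage (hd : d.Good r₂ β φ₀) {p : Param} (hp : InBox d p) {i l : ℕ}
    (hl : l < (d.plan (d.j₀ + i)).length) :
    ContinuousOn (pathMat d p K) (Icc (stageStart d i l) (stageStart d i (l + 1))) := by
  set σ := (d.plan (d.j₀ + i))[l] with hσ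
  set ε := speed (d.j₀ + i) with hε
  set t₀ := stageStart d i l
  have hend : ε * (stageStart d i (l + 1) - t₀) = σ.dur := by
    rw [stageStart_succ hl, add_sub_cancel_left, mul_div_cancel₀]
    exact (speed_pos (one_le_idx hd i)).ne'
  have hfree : stageQ σ ε (d.scale (stageStart d i (l + 1))) (p i l)
      (ε * (stageStart d i (l + 1) - t₀)) =
        adQ σ.gauge fun _ => d.scale (stageStart d i (l + 1)) := by
    rw [hend, stageQ_free _ _ (hd.scale_pos _) _ (stageCtrl_eq_zero _ _ (Or.inr ?_)),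
      stageTheta_dur, linePar_one]
    have : (0 : ℝ) ≤ σ.wait + σ.dwell := by positivity
    simp only [StagePlan.dur]; linarith
  have heq : ∀ t ∈ Icc t₀ (stageStart d i (l + 1)),
      pathMat d p K t = stageMat d σ (p i l) i t₀ K t := by
    intro t ht
    rcases ht.2.lt_or_eq with hlt | rfl
    · exact (pathMat_stage hd p hl ⟨ht.1, hlt⟩).1
    · rw [pathMat_eq_scale hd p (Nat.succ_le_of_lt hl), stageMat, hfree, gaugeMat_adQ]
      rfl
  refine ContinuousOn.congr ?_ heq
  refine continuousOn_gauge_linkOp fun a b => ?_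
  intro t ht
  refine ContinuousAt.continuousWithinAt ?_
  -- the determinant ratio is nonzero
  have hsc : Continuous d.scale := hd.scale_smooth.continuous
  have hθ := stageTheta_continuous σ
  have hbase : Continuous fun t =>
      adQ σ.gauge (linePar (d.scale t) (stageTheta σ (ε * (t - t₀))) σ.gauge) := by
    refine continuous_pi fun a => continuous_pi fun b => ?_
    have hl' : ∀ k, Continuous fun t => linePar (d.scale t) (stageTheta σ (ε * (t - t₀))) σ.gauge k := by
      intro k
      unfold linePar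
      refine (((continuous_const.mul hsc).div (by fun_prop) fun u => ?_)).mul ?_
      · have := (stageTheta_mem σ (ε * (u - t₀))).1
        positivity
      · split_ifs <;> fun_prop
    unfold adQ
    split_ifs <;> fun_prop
  have hctrl : Continuous fun t => stageCtrl σ (p i l) (ε * (t - t₀)) := by
    unfold stageCtrl
    exact continuous_finsetSum _ fun k _ =>
      (continuous_const.mul (bump_continuous.comp (by fun_prop))).smul continuous_const
  have hQ := hbase.add ((((continuous_const (y := Real.sqrt 3)).mul hsc).mul (continuous_const (y := ε))).smul hctrl)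
  have hpos : (stageQ σ ε (d.scale t) (p i l) (ε * (t - t₀))).PosDef := by
    rcases ht.2.lt_or_eq with hlt | rfl
    · rw [← (pathQ_inStage hd hl ⟨ht.1, hlt⟩ p).2]
      exact hd.pathQ_pos p hp t
    · rw [hfree, ← linePar_one]
      exact line_posDef (hd.scale_pos _) zero_le_one le_rfl _
  set B := adQ σ.gauge (linePar (d.scale t) (stageTheta σ (ε * (t - t₀))) σ.gauge)
  have hQ0 : (B + (Real.sqrt 3 * d.scale t * ε) • stageCtrl σ (p i l) (ε * (t - t₀))).det ≠ 0 := by
    intro h0
    apply hpos.det_pos.ne'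
    show (((B.det / (B + (Real.sqrt 3 * d.scale t * ε) • stageCtrl σ (p i l) (ε * (t - t₀))).det) ^
      (1 / 6 : ℝ)) • (B + (Real.sqrt 3 * d.scale t * ε) • stageCtrl σ (p i l) (ε * (t - t₀)))).det = 0
    rw [det_smul, h0, mul_zero]
  have hB0 : B.det ≠ 0 :=
    (line_posDef (hd.scale_pos _) (stageTheta_mem _ _).1 (stageTheta_mem _ _).2 _).det_pos.ne'
  have hc := ((hbase.matrix_det.continuousAt (x := t)).div hQ.matrix_det.continuousAt hQ0).rpow_const
    (p := (1 / 6 : ℝ)) (Or.inl (div_ne_zero hB0 hQ0))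
  exact hc.mul ((hQ.matrix_elem a b).continuousAt (x := t))

theorem continuous_pathMat (hd : d.Good r₂ β φ₀) {p : Param} (hp : InBox d p) :
    Continuous (pathMat d p K) := by
  have hstages : ∀ i, ∀ l ≤ (d.plan (d.j₀ + i)).length,
      ContinuousOn (pathMat d p K) (Icc (clusterStart d i) (stageStart d i l)) := by
    intro i l hl
    induction l with
    | zero => rw [stageStart_zero, Icc_self]; exact continuousOn_singleton _ _
    | succ l ih =>
      rw [← Icc_union_Icc_eq_Icc (clusterStart_le_stageStart hd (by omega : l ≤ _))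
        (stageStart_lt_succ hd (by omega)).le]
      exact (ih (by omega)).union_of_isClosed (continuousOn_stage hd hp (by omega)) isClosed_Icc
        isClosed_Icc
  have hclus : ∀ i, ContinuousOn (pathMat d p K) (Icc (clusterStart d i) (clusterStart d (i + 1))) := by
    intro i
    rw [← Icc_union_Icc_eq_Icc (clusterStart_le_stageStart hd le_rfl) (stageEnd_lt hd i).le]
    refine (hstages i _ le_rfl).union_of_isClosed ?_ isClosed_Icc isClosed_Icc
    exact ((continuous_rdiag fun x => continuous_finsetSum _ fun k _ =>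
      hd.scale_smooth.continuous.mul continuous_const).continuousOn).congr
        fun t ht => (pathMat_dwell hd p ht).1
  have hall : ∀ n, ContinuousOn (pathMat d p K) (Iic (clusterStart d n)) := by
    intro n
    induction n with
    | zero =>
      exact ((continuous_rdiag fun x => continuous_finsetSum _ fun k _ =>
        (hd.pre_smooth k).continuous.mul continuous_const).continuousOn).congr
          fun t ht => (pathMat_pre hd p ht).2
    | succ n ih =>
      rw [← Iic_union_Icc_eq_Iic ((clusterStart_bounds hd).1.monotone (Nat.le_succ n))]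
      exact ih.union_of_isClosed (hclus n) isClosed_Iic isClosed_Icc
  refine continuous_iff_continuousAt.2 fun t => ?_
  obtain ⟨C, hC, hb⟩ := (clusterStart_bounds hd).2
  obtain ⟨n, hn⟩ := exists_nat_gt (C * |t|)
  refine (hall n).continuousAt (Iic_mem_nhds ?_)
  have h1 : (1 : ℝ) ≤ ((d.j₀ + n : ℕ) : ℝ) := by exact_mod_cast one_le_idx hd n
  have h2 : (n : ℝ) ≤ ((d.j₀ + n : ℕ) : ℝ) ^ 6 :=
    (show (n : ℝ) ≤ ((d.j₀ + n : ℕ) : ℝ) by exact_mod_cast Nat.le_add_left n d.j₀).trans
      (le_self_pow₀ h1 (by norm_num))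
  have h3 : |t| < C⁻¹ * ((d.j₀ + n : ℕ) : ℝ) ^ 6 := by
    rw [lt_inv_mul_iff₀ hC]; linarith
  linarith [le_abs_self t, (hb n).1]

theorem pathMat_posSemidef (hd : d.Good r₂ β φ₀) {p : Param} (hp : InBox d p) (t : ℝ) :
    (pathMat d p K t).PosSemidef := by
  have hQ := hd.pathQ_pos p hp t
  refine gaugeMat_posSemidef fun q => ?_
  have h := linkOp_ge (q := 0) (Q := pathQ d p t)
    (by simpa [Matrix.IsHermitian, Matrix.IsSymm] using hQ.isHermitian)
    (by simpa using hQ.posSemidef) q
  simpa [pathOp] using h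

theorem linkOp_lin (a : ℝ) (Q R : LinkMat) (q : ℕ × ℕ) :
    linkOp (a • Q + R) q = (a : ℂ) • linkOp Q q + linkOp R q := by
  simp only [linkOp, Matrix.add_apply, Matrix.smul_apply, smul_eq_mul, Complex.ofReal_add,
    Complex.ofReal_mul, add_smul, mul_smul, Finset.sum_add_distrib, ← Finset.smul_sum, neg_add,
    smul_neg]

/-- A link inequality gives one of truncated operators. -/
theorem gauge_linkOp_le {G : Fin 3} {a : ℝ} {Q R : LinkMat}
    (h : (a • Q - R).PosSemidef) :
    (a • gaugeMat K G (linkOp Q) - gaugeMat K G (linkOp R)).PosSemidef := by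
  have e : linkOp (a • Q - R) = fun q => (a : ℂ) • linkOp Q q + (-1 : ℂ) • linkOp R q := by
    funext q
    rw [sub_eq_add_neg, linkOp_lin, show -R = (-1 : ℝ) • R + 0 by simp, linkOp_lin]
    simp [linkOp]
  have h2 : (gaugeMat K G (linkOp (a • Q - R))).PosSemidef := gaugeMat_posSemidef fun q => by
    simpa using linkOp_ge (q := 0)
      (by simpa [Matrix.IsHermitian, Matrix.IsSymm] using h.isHermitian) (by simpa using h) q
  rw [e, gaugeMat_add, gaugeMat_smul, gaugeMat_smul] at h2
  rw [← Complex.coe_smul, sub_eq_add_neg]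
  simpa using h2

theorem gauge_linkOp_smul {G : Fin 3} (a : ℝ) (Q : LinkMat) :
    gaugeMat K G (linkOp (a • Q)) = a • gaugeMat K G (linkOp Q) := by
  have e : linkOp (a • Q) = fun q => (a : ℂ) • linkOp Q q := funext fun q => by
    simpa [linkOp] using linkOp_lin a Q 0 q
  rw [e, gaugeMat_smul, Complex.coe_smul]

theorem gauge_linkOp_ge {G : Fin 3} {a : ℝ} {Q R : LinkMat} (h : (R - a • Q).PosSemidef) :
    (gaugeMat K G (linkOp R) - a • gaugeMat K G (linkOp Q)).PosSemidef := by
  have := gauge_linkOp_le (K := K) (G := G) (a := 1) (Q := R) (R := a • Q) (by simpa using h)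
  rwa [one_smul, gauge_linkOp_smul] at this

end Vale.Agent.P225.Trunc
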